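import Crest.Agent.N206.PL.Defs
import Crest.Agent.N206.Dual.KKT

/-! # Row 206 (S0317): existence of an optimal point, edge counts of walks (helper6). -/

set_option autoImplicit false

open Finset SimpleGraph
open Crest.GeometryTopology.GraphMetric

namespace Crest.Agent.N206.Dual

open PL

theorem exists_opt {E P : Type*} [Fintype E] [Fintype P] {Γ : P → Type*} [∀ p, Fintype (Γ p)]
    [∀ p, Nonempty (Γ p)] (a : ∀ p, Γ p → E → ℝ) (w : P → ℝ) (hw : ∀ p, 0 ≤ w p)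
    (f lo hi : E → ℝ) (h : lo ≤ hi) :
    ∃ (x : E → ℝ) (m : P → ℝ) (θ : ∀ p, Γ p → ℝ), lo ≤ x ∧ x ≤ hi ∧
      (∀ p g, m p ≤ x ⬝ᵥ a p g) ∧ (∀ p, ∃ g, x ⬝ᵥ a p g = m p) ∧
      (∀ y, lo ≤ y → y ≤ hi → ∀ μ : P → ℝ, (∀ p g, μ p ≤ y ⬝ᵥ a p g) →
        ∑ p, w p * μ p - y ⬝ᵥ f ≤ ∑ p, w p * m p - x ⬝ᵥ f) ∧
      (∀ p g, 0 ≤ θ p g) ∧ (∀ p, ∑ g, θ p g = w p) ∧ (∀ p g, θ p g ≠ 0 → x ⬝ᵥ a p g = m p) ∧
      (∀ e, x e < hi e → ∑ p, ∑ g, θ p g * a p g e ≤ f e) ∧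
      (∀ e, lo e < x e → f e ≤ ∑ p, ∑ g, θ p g * a p g e) := by
  set m : P → (E → ℝ) → ℝ := fun p y => univ.inf' univ_nonempty fun g => y ⬝ᵥ a p g with hm
  have h1 : ∀ p y g, m p y ≤ y ⬝ᵥ a p g := fun p y g => inf'_le _ (mem_univ g)
  have h2 : ∀ p y, ∃ g, m p y = y ⬝ᵥ a p g := fun p y =>
    (exists_mem_eq_inf' univ_nonempty fun g => y ⬝ᵥ a p g).imp fun _ h => h.2
  have hc : Continuous fun y => ∑ p, w p * m p y - y ⬝ᵥ f :=
    (continuous_finsetSum _ fun p _ => continuous_const.mul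
      (Continuous.finset_inf'_apply _ fun g _ => by fun_prop)).sub (by fun_prop)
  obtain ⟨x, hx, hmax⟩ := (isCompact_Icc (a := lo) (b := hi)).exists_isMaxOn ⟨lo, le_rfl, h⟩
    hc.continuousOn
  obtain ⟨θ, h3⟩ := kkt a w hw f lo hi x hx.1 hx.2 m (fun p y _ _ => h2 p y)
    (fun p y g _ _ => h1 p y g) fun y y1 y2 => hmax ⟨y1, y2⟩
  refine ⟨x, fun p => m p x, θ, hx.1, hx.2, fun p => h1 p x,
    fun p => (h2 p x).imp fun _ h => h.symm, fun y y1 y2 μ hμ => le_trans ?_ (hmax ⟨y1, y2⟩), h3⟩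
  exact sub_le_sub_right (sum_le_sum fun p _ => mul_le_mul_of_nonneg_left
    (le_inf' _ _ fun g _ => hμ p g) (hw p)) _

variable {V : Type} {G : SimpleGraph V}

open Classical in
/-- number of traversals of an edge -/
noncomputable def cnt {x y : V} (p : G.Walk x y) (e : Sym2 V) : ℝ := p.edges.count e

theorem cnt_nonneg {x y : V} (p : G.Walk x y) (e : Sym2 V) : 0 ≤ cnt p e := Nat.cast_nonneg _

theorem mem_of_cnt {x y : V} {p : G.Walk x y} {e : Sym2 V} (h : cnt p e ≠ 0) : e ∈ p.edges := by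
  classical
  by_contra h'
  exact h (by simp [cnt, List.count_eq_zero_of_not_mem h'])

theorem dot_cnt [Fintype V] (ℓ : Sym2 V → ℝ) {x y : V} (p : G.Walk x y) :
    ℓ ⬝ᵥ cnt p = wl ℓ p := by
  classical
  unfold wl cnt dotProduct
  induction p.edges with
  | nil => simp
  | cons e l ih =>
    simp only [List.count_cons, Nat.cast_add, mul_add, sum_add_distrib, ih, List.map_cons,
      List.sum_cons, add_comm, beq_iff_eq, Nat.cast_ite, Nat.cast_one, Nat.cast_zero, mul_ite,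
      mul_one, mul_zero, sum_ite_eq, mem_univ, if_true]

theorem wl_congr {ℓ ℓ' : Sym2 V → ℝ} (h : ∀ e ∈ G.edgeSet, ℓ e = ℓ' e) {x y : V}
    (p : G.Walk x y) : wl ℓ p = wl ℓ' p :=
  congrArg List.sum (List.map_congr_left fun e he => h e (p.edges_subset_edgeSet he))

theorem wl_toPath_le [DecidableEq V] {ℓ : Sym2 V → ℝ} (h : ∀ e ∈ G.edgeSet, 0 ≤ ℓ e) {x y : V}
    (p : G.Walk x y) : wl ℓ (p.toPath : G.Walk x y) ≤ wl ℓ p :=
  ((p.edges_bypass_sublist_edges).map ℓ).sum_le_sum fun a ha => by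
    obtain ⟨e, he, rfl⟩ := List.mem_map.1 ha
    exact h e (p.edges_subset_edgeSet he)

theorem wl_split [DecidableEq V] (ℓ : Sym2 V → ℝ) {x y z : V} (p : G.Walk x y)
    (h : z ∈ p.support) : wl ℓ (p.takeUntil z h) + wl ℓ (p.dropUntil z h) = wl ℓ p := by
  conv_rhs => rw [← p.take_spec h]
  simp only [wl, Walk.edges_append, List.map_append, List.sum_append]

open Classical in
/-- lengths, zero off the edge set -/
noncomputable def ext0 (G : SimpleGraph V) (ℓ : Sym2 V → ℝ) (e : Sym2 V) : ℝ :=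
  if e ∈ G.edgeSet then ℓ e else 0

theorem ext0_eq (ℓ : Sym2 V → ℝ) : ∀ e ∈ G.edgeSet, ext0 G ℓ e = ℓ e := fun _ he => if_pos he

theorem ext0_nonneg {ℓ : Sym2 V → ℝ} (h : ∀ e ∈ G.edgeSet, 0 < ℓ e) (e : Sym2 V) :
    0 ≤ ext0 G ℓ e := by
  unfold ext0
  split_ifs with he
  exacts [(h e he).le, le_rfl]

end Crest.Agent.N206.Dual
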